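import Vale.Agent.P287D.Ex.Gen

/-!
# Labellings given by cochains and labellings given by classes
-/

set_option linter.style.haveILetI false

namespace Vale.Agent.N287

open Set MvPolynomial P291Z P269 P269.Mono P287Q P287Q.Cub P287Q.Zc P287Q.Cub.Ey P287T.Top
  P287T.Cl P287D.Ex

variable {F : MvPolynomial (Fin 6) ℂ} {d d' : ℤ}

theorem gInC_of (h : Stm.InC F d) : GInC (G22 (F := F) (Y := XF F) (Quo.mk _)) d :=
  have k : ∀ r r' : Stm.cone F → Stm.cone F → Prop, r = r' →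
      GInC (G22 (Quot.mk r')) d → GInC (G22 (Quot.mk r)) d := fun _ _ e => e ▸ id
  k _ _ (rel_eq F) h

theorem gRk_of (h : Stm.RankTwo F) : GRk (G22 (F := F) (Y := XF F) (Quo.mk _)) :=
  have k : ∀ r r' : Stm.cone F → Stm.cone F → Prop, r = r' →
      GRk (G22 (Quot.mk r')) → GRk (G22 (Quot.mk r)) := fun _ _ e => e ▸ id
  k _ _ (rel_eq F) h

theorem hd_tt {x : H (XF F)} : Hd F 2 2 x ↔ x ∈ P287T.Per.TT F 2 2 :=
  haveI := N0_isAct (π₀ (Fin 6))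
  Cub.hd_iff

theorem pol (h : P287T.Per.Sm F) {β g} (hp : Stm.IsPol (Y := XF F) β g) :
    (∀ a, Stm.Null (Stm.cob a) → β a = JF F (cl a)) ∧ cl g ^ 2 = hyp F ^ 2 := by
  haveI := isAct_scl (π₀ (Fin 6))
  have q := qmF h.hom h.sm
  haveI := q.cpt
  have c := cubF q h.hom h.sm
  have hh : hyp F ∈ Lk (XF F) 2 := ⟨c.int, c.lf.deg⟩
  have k : ∀ n : ℕ, n ≠ 2 → ∀ x : H (XF F), H.IsDeg (2 * n) x → ∃ s : ℂ, x = s • hyp F ^ n :=
    fun n hn x hx => by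
      obtain rfl | ⟨j, s, e, rfl⟩ := amb_deg c.lf.deg (c.lf.amb _ (by
        change 2 * (n : ℤ) ≠ 4; omega) x hx) hx
      · exact ⟨0, (zero_smul _ _).symm⟩
      · exact ⟨s, by rw [show j = n by omega]⟩
  have h1 : ∃ b ∈ Lk (XF F) 8, Loc.intg (βF F) b = 1 := by
    have ne : Nonempty (XF F) := by_contra fun e => by
      haveI := not_nonempty_iff.1 e
      obtain ⟨a, -, -, e⟩ := c.int
      have h3 : Loc.intg (βF F) (hyp F ^ 4) = 3 := c.deg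
      rw [← e, Subsingleton.elim a 0, hcls_zero, zero_pow (by decide), map_zero] at h3
      norm_num at h3
    obtain ⟨b, b1, b2⟩ := (oriZ_qm q).gen ne.some
    exact ⟨hcls b, ⟨⟨b, b1.int, b1.cyc, rfl⟩, hcls_isDeg b1.deg⟩,
      (Loc.intg_hcls _ b1.cyc).trans b2⟩
  exact of_pol (J := Loc.intg (βF F)) c.pz.int hh c.deg
    (fun x hx => by simpa using k 1 (by decide) x hx) (k 4 (by decide)) h1 hp

theorem det_pos {G : Matrix (Fin 2) (Fin 2) ℤ} (h : G.PosDef) (s : G 1 0 = G 0 1) : 0 < G.det := by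
  have h0 : 0 < G 0 0 := h.diag_pos
  have := h.dotProduct_mulVec_pos (x := ![-G 0 1, G 0 0]) fun e => h0.ne' (congrFun e 1)
  simp only [dotProduct, Matrix.mulVec, Fin.sum_univ_two, star_trivial, Matrix.cons_val_zero,
    Matrix.cons_val_one, s] at this
  rw [Matrix.det_fin_two, s]
  nlinarith

theorem lab_of (h : P287T.Per.Sm F) (hc : Stm.InC F d) : Lab F d ∧ 0 < d := by
  obtain ⟨⟨β, g, hp⟩, k⟩ := gInC_of hc
  obtain ⟨e, e1, ⟨G, g1, g2, rfl⟩, e3, e4⟩ := k β g hp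
  obtain ⟨p1, p2⟩ := pol h hp
  obtain ⟨B, η, hB, hη, -, -, hs, -, -, h3, -⟩ := stForm h.cu
  have a := fun i => (gAlg_iff (fun _ => And.left) (Ey.hd_iff h.sm)).1 (e1 i)
  have he := fun i => (a i).1.1
  obtain ⟨x, hx⟩ : ∃ x : Fin 2 → Lk (XF F) 4, ∀ i, cl (e i) = (x i).1 :=
    ⟨fun i => ⟨_, mem_Lk (a i).1⟩, fun _ => rfl⟩
  have hG : ∀ i j, G i j = B (x i) (x j) := fun i j => Int.cast_injective (α := ℂ) (by
    obtain ⟨c1, c2⟩ := cyc_cup (he i) (he j)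
    rw [← g1, hB, ← hx, ← hx, ← c2]
    exact p1 _ c1)
  have t : ∀ i, (x i).1 ∈ P287T.Per.TT F 2 2 := fun i => hx i ▸ hd_tt.1 (a i).2
  obtain ⟨c1, c2⟩ := cyc_cup hp.2.2.1.1 hp.2.2.1.1
  obtain ⟨m, n, hm⟩ := Submodule.mem_span_pair.1
    ((inSpan_iff he (hx 0) (hx 1) (x := η) c1 (c2.trans (by rw [hη, ← p2, sq]))).1 e3)
  have h4 : m * m * B (x 0) (x 0) + 2 * m * n * B (x 0) (x 1) + n * n * B (x 1) (x 1) = 3 := by
    rw [← h3, ← hm]
    simp only [map_add, map_smul, LinearMap.add_apply, LinearMap.smul_apply, smul_eq_mul,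
      hs.eq (x 1) (x 0)]
    ring
  obtain ⟨r, s, hr⟩ : IsCoprime m n := isRelPrime_iff_isCoprime.1 (by
    rintro u ⟨m, rfl⟩ ⟨n, rfl⟩
    exact Int.prime_three.squarefree u ⟨m * m * B (x 0) (x 0) + 2 * m * n * B (x 0) (x 1) +
      n * n * B (x 1) (x 1), by linear_combination -h4⟩)
  have sp : Submodule.span ℤ {η, (-s) • x 0 + r • x 1} = Submodule.span ℤ {x 0, x 1} :=
    le_antisymm (Submodule.span_le.2 (by
      rintro _ (rfl | rfl)
      exacts [Submodule.mem_span_pair.2 ⟨_, _, hm⟩, Submodule.mem_span_pair.2 ⟨_, _, rfl⟩]))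
    (Submodule.span_le.2 (by
      rintro _ (rfl | rfl)
      · exact Submodule.mem_span_pair.2 ⟨r, -n, by
          rw [← hm]; linear_combination (norm := module) hr • x 0⟩
      · exact Submodule.mem_span_pair.2 ⟨s, m, by
          rw [← hm]; linear_combination (norm := module) hr • x 1⟩))
  have tt : ∀ a b : ℤ, Hd F 2 2 (a • x 0 + b • x 1).1 := fun a b =>
    hd_tt.2 (add_mem (zsmul_mem (t 0) a) (zsmul_mem (t 1) b))
  refine ⟨⟨B, η, (-s) • x 0 + r • x 1, hB, hs, hη, h3, hm ▸ tt _ _, tt _ _, ?_, ?_⟩,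
    det_pos g2 (by rw [hG, hG, hs.eq])⟩
  · rw [sp]
    intro k y hk hy
    obtain ⟨c, c1, c2⟩ := exists_int (k := 4) y.2
    refine (inSpan_iff he (hx 0) (hx 1) c1.1 c2).1 (e4 c k c1 hk ?_)
    obtain ⟨k1, k2⟩ := cyc_lin c1.1 c1.1 k 0
    rw [zero_smul, add_zero, Int.cast_smul_eq_zsmul] at k1 k2
    exact (inSpan_iff he (hx 0) (hx 1) k1 (k2.trans (by
      rw [zero_smul, add_zero, Int.cast_smul_eq_zsmul, c2]; rfl))).2 hy
  · rw [Matrix.det_fin_two, hG, hG, hG, hG, ← h4, ← hm]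
    simp only [map_add, map_smul, LinearMap.add_apply, LinearMap.smul_apply, smul_eq_mul,
      hs.eq (x 1) (x 0)]
    linear_combination (B (x 0) (x 1) * B (x 0) (x 1) - B (x 0) (x 0) * B (x 1) (x 1)) *
      (r * m + s * n + 1) * hr

theorem rk2_of (h : P287T.Per.Sm F) (hr : Stm.RankTwo F) : Rk2 F := by
  obtain ⟨e, e1, e2⟩ := gRk_of hr
  have a := fun i => (gAlg_iff (fun _ => And.left) (Ey.hd_iff h.sm)).1 (e1 i)
  refine ⟨⟨_, mem_Lk (a 0).1⟩, ⟨_, mem_Lk (a 1).1⟩, (a 0).2, (a 1).2, fun y hy => ?_⟩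
  obtain ⟨c, c1, c2⟩ := exists_int (k := 4) y.2
  exact (inSpan_iff (fun i => (a i).1.1) rfl rfl c1.1 c2).1
    (e2 c ((gAlg_iff (fun _ => And.left) (Ey.hd_iff h.sm)).2 ⟨c1, c2 ▸ hy⟩))

theorem gen_of (hl : Lab F d) (hr : Rk2 F) (pos : d ≠ 0) : Gen F d := by
  obtain ⟨B, η, v, hB, hs, hη, h3, k1, k2, sat, rfl⟩ := hl
  obtain ⟨η', v', -, -, g⟩ := hr
  refine ⟨B, η, v, hB, hs, hη, h3, hd_tt.1 k1, hd_tt.1 k2, rfl, fun x hx => ?_⟩
  obtain ⟨a, b, e1⟩ := Submodule.mem_span_pair.1 (g η k1)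
  obtain ⟨c, e, e2⟩ := Submodule.mem_span_pair.1 (g v k2)
  obtain ⟨p, q, e3⟩ := Submodule.mem_span_pair.1 (g x (hd_tt.2 hx))
  refine sat (a * e - b * c) x (fun z => pos ?_) (Submodule.mem_span_pair.2
    ⟨p * e - q * c, q * a - p * b, by rw [← e1, ← e2, ← e3]; module⟩)
  rw [← h3, ← e1, ← e2]
  simp only [map_add, map_smul, LinearMap.add_apply, LinearMap.smul_apply, smul_eq_mul,
    hs.eq v' η']
  linear_combination (B η' η' * B v' v' - B η' v' ^ 2) * (a * e - b * c) * z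

theorem Gen.lab (h : Gen F d) : Lab F d ∧ Rk2 F := by
  obtain ⟨B, η, v, hB, hs, hη, h3, k1, k2, rfl, g⟩ := h
  refine ⟨⟨B, η, v, hB, hs, hη, h3, hd_tt.2 k1, hd_tt.2 k2, fun k x hk hx => g x ?_, rfl⟩,
    η, v, hd_tt.2 k1, hd_tt.2 k2, fun x hx => g x (hd_tt.1 hx)⟩
  obtain ⟨a, b, e⟩ := Submodule.mem_span_pair.1 hx
  have : (k : ℂ) • x.1 ∈ P287T.Per.TT F 2 2 := by
    rw [Int.cast_smul_eq_zsmul, ← Submodule.coe_smul, ← e]
    exact add_mem (zsmul_mem k1 a) (zsmul_mem k2 b)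
  exact (Submodule.smul_mem_iff _ (Int.cast_ne_zero.2 hk)).1 this

theorem gen_dvd (h : Gen F d) (h' : Gen F d') : ∃ b : ℤ, d' = b ^ 2 * d := by
  obtain ⟨B, η, v, hB, hs, hη, h3, -, -, rfl, g⟩ := h
  obtain ⟨B', η', v', hB', -, hη', -, -, k, rfl, -⟩ := h'
  obtain rfl : B = B' := LinearMap.ext₂ fun x y =>
    Int.cast_injective (α := ℂ) ((hB x y).trans (hB' x y).symm)
  obtain rfl : η = η' := Subtype.ext (hη.trans hη'.symm)
  obtain ⟨a, b, rfl⟩ := Submodule.mem_span_pair.1 (g v' k)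
  refine ⟨b, ?_⟩
  simp only [map_add, map_smul, LinearMap.add_apply, LinearMap.smul_apply, smul_eq_mul, h3,
    hs.eq η v]
  ring

theorem gen_uniq (h : Gen F d) (h' : Gen F d') (pos : d ≠ 0) : d = d' := by
  obtain ⟨a, e⟩ := gen_dvd h h'
  obtain ⟨b, e'⟩ := gen_dvd h' h
  have k : a ^ 2 * b ^ 2 = 1 := mul_right_cancel₀ pos (by rw [one_mul]; nth_rw 2 [e']; rw [e]; ring)
  rw [e, Int.eq_one_of_mul_eq_one_right (sq_nonneg a) k, one_mul]

theorem gen_iff (h : P287T.Per.Sm F) (pos : 0 < d) : Gen F d ↔ Stm.InC F d ∧ Stm.RankTwo F :=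
  ⟨fun g => ⟨(Gen.lab g).1.stm h.hom h.sm pos, rk2 h.sm (Gen.lab g).2⟩,
    fun g => gen_of (lab_of h g.1).1 (rk2_of h g.2) pos.ne'⟩

end Vale.Agent.N287
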