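import Vale.Agent.P287T.Stm
import Vale.Agent.P287Q.StmR

/-!
# Irrational cubic fourfolds in the divisors `C_d`: definitions of the statement
-/

open Filter Topology MvPolynomial

namespace Vale.Agent.N287

open P287T.Stm P294Z P287Z

/-- `Ku(X) ≃ D^b(Coh S)` for some projective K3 surface `S`, where `X` is the cubic `F = 0` and
`L 0, L 1, L 2` are `𝒪, 𝒪(1), 𝒪(2)`. -/
def K3Cat (F : MvPolynomial (Fin 6) ℂ) [Fact (F.IsHomogeneous 3)] : Prop :=
  ∃ (ν : ℕ) (I : Ideal (MvPolynomial (Fin ν) ℂ)) (_ : Fact (IsHom I))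
    (L : Fin 3 → Coh (PI (Ideal.span {F}))), IsK3 (PI I) ∧ P287T.Stm.Tw (Ideal.span {F}) L ∧
    letI := HasDerivedCategory.standard (Coh (PI I))
    letI := HasDerivedCategory.standard (Coh (PI (Ideal.span {F})))
    KuEqv (PI I) (PI (Ideal.span {F})) L

/-- There is a holomorphic homeomorphism from the hypersurface `F = 0` to the hypersurface `G = 0`:
near every point of the cone over the first one it is induced by an analytic map. -/
def Iso (F G : MvPolynomial (Fin 6) ℂ) : Prop :=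
  ∃ φ : P287Q.Stm.Var F ≃ₜ P287Q.Stm.Var G, ∀ x : P287Q.Stm.cone F,
    ∃ Φ : (Fin 6 → ℂ) → Fin 6 → ℂ, AnalyticAt ℂ Φ x ∧ ∀ᶠ y : P287Q.Stm.cone F in 𝓝 x,
      ∃ h : Φ y ∈ P287Q.Stm.cone G, φ (Quot.mk _ y) = Quot.mk _ ⟨Φ y, h⟩

/-- For every sequence `G n` of smooth cubic fourfolds there is a smooth cubic fourfold `F = 0`, with
coefficients within `ε` of those of `F₀`, isomorphic to no `G n`, which lies in `C_d`, has
`H⁴(X, ℤ) ∩ H^{2,2}(X)` of rank two, is irrational, and has the Kuznetsov component of a K3 surface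
if `d` is admissible. -/
def Many (F₀ : MvPolynomial (Fin 6) ℂ) (ε : ℝ) (d : ℤ) : Prop :=
  ∀ G : ℕ → MvPolynomial (Fin 6) ℂ, (∀ n, (G n).IsHomogeneous 3 ∧ IsSmoothForm (G n)) →
    ∃ (F : MvPolynomial (Fin 6) ℂ) (_ : Fact (F.IsHomogeneous 3)), IsSmoothForm F ∧
      (∀ m, ‖coeff m F - coeff m F₀‖ < ε) ∧ (∀ n, ¬ Iso F (G n)) ∧
      P287Q.Stm.InC F d ∧ P287Q.Stm.RankTwo F ∧ ¬ IsRationalForm F ∧
      (P287Q.Stm.Admissible d → K3Cat F)

end Vale.Agent.N287
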