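import Vale.Agent.N287.Lat
import Vale.Agent.N287.Br
import Vale.Agent.N287.Defs

/-!
# Cubic fourfolds with `A(X)` of rank two near a given cubic fourfold
-/

set_option linter.style.haveILetI false

namespace Vale.Agent.N287

open Set Filter Topology Module Metric P291Z P269 P287Q P287Q.Cub P287Q.Zc P287T P287T.Ch P287T.Cy
  P287T.Au P287T.Rr P287T.Top P287T.Cl P287D.Ex

variable {F G : S6} {d : ℤ} {O : Set T3}

theorem node (h : Per.Sm F) : ∃ v : Cls F, Top.Node v := by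
  obtain ⟨F0, h0, v0, hv0, -⟩ := Bs.stBase stLat stMem hrr
  obtain ⟨t0, rfl⟩ := p3_onto F0 h0.hom
  obtain ⟨t, rfl⟩ := p3_onto F h.hom
  refine conn_pre.induction₂'
    (fun s t => (∃ v : Cls (p3 s), Top.Node v) → ∃ v : Cls (p3 t), Top.Node v) (fun s hs => ?_)
    (fun _ _ _ _ _ _ a b c => b (a c)) h0 h ⟨v0, hv0⟩
  obtain ⟨r, Φ, σ, η, k⟩ := Per.stPer_of Per.stHes T3 hs p3 p3_hom
  filter_upwards [nhdsWithin_le_nhds (ball_mem_nhds s k.pos)] with u hu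
  have m : u - s ∈ ball (0 : T3) r := by rwa [mem_ball_zero_iff, ← dist_eq_norm]
  obtain ⟨b1, -, -, b4⟩ := stTr hs.cu (k.sm _ m).cu (k.tr _ m)
  rw [show p3 u = p3 s + p3 (u - s) by rw [← map_add, add_sub_cancel]]
  exact ⟨fun ⟨v, hv⟩ => let ⟨v', e⟩ := b1.2 v; ⟨v', (b4 v').1 (e ▸ hv)⟩,
    fun ⟨v, hv⟩ => ⟨_, (b4 v).2 hv⟩⟩

theorem planes (h : Per.Sm F) : ∃ e1 f1 e2 f2 g : LT F, UU (bZ h.cu) e1 f1 e2 f2 ∧
    O4 (bZ h.cu) e1 f1 e2 f2 (L1 F) ∧ O4 (bZ h.cu) e1 f1 e2 f2 (L2 F) ∧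
    O4 (bZ h.cu) e1 f1 e2 f2 g ∧ bZ h.cu (L1 F) g = 1 ∧ bZ h.cu (L2 F) g = 0 := by
  obtain ⟨v, hv⟩ := node h
  have L := lat h.cu
  have nv := (node_iff h.cu ⟨v, hv.mem⟩).1 hv
  obtain ⟨e1, f1, e2, f2, hU, hG⟩ := L.uu _ nv.iso nv.cop
  obtain ⟨B, η, hB, hη, -, -, hs, hb, -, h3, -⟩ := stForm h.cu
  obtain ⟨c, y, z, -, e, k⟩ := uu_prim hb (x := η) (by rintro rfl; simp at h3)
  have c1 : c * c = 1 := Int.isUnit_iff.1 (Int.prime_three.squarefree c ⟨B y y, by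
    rw [← h3, e]; simp [mul_assoc]⟩) |>.elim (by rintro rfl; rfl) (by rintro rfl; rfl)
  have m : ((eis ![1, 0, 0], pr F (c • z).1) : Cls F) ∈ LT F :=
    ⟨_, (c • z).2, _, (eLT_sum hB hη _ _).2 (by
      rw [e]; simp [hs.eq z y, k, c1]), rfl⟩
  have g1 : bZ h.cu (L1 F) ⟨_, m⟩ = 1 := bZ_l1 h.cu (p2 := 0) ⟨_, rfl, rfl, rfl⟩
  have g2 : bZ h.cu (L2 F) ⟨_, m⟩ = 0 := bZ_l2 h.cu (p1 := 1) ⟨_, rfl, rfl, rfl⟩
  generalize (⟨_, m⟩ : LT F) = g at g1 g2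
  have k1 := hG (L1 F) (by simp)
  have k2 := hG (L2 F) (by simp)
  generalize bZ h.cu = b at *
  have u1 := hU.u1
  have u2 := hU.u2
  refine ⟨e1, f1, e2, f2, g - b g f1 • e1 - b g e1 • f1 - b g f2 • e2 - b g e2 • f2, hU, k1, k2,
    ⟨?_, ?_, ?_, ?_⟩, ?_, ?_⟩ <;>
  simp [u1.ee, u1.ff, u1.ef, u2.ee, u2.ff, u2.ef, L.symm f1 e1, L.symm f2 e2, L.symm e2 e1,
    L.symm e2 f1, L.symm f2 e1, L.symm f2 f1, hU.ee, hU.ef, hU.fe, hU.ff, k1.1, k1.2.1, k1.2.2.1,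
    k1.2.2.2, k2.1, k2.2.1, k2.2.2.1, k2.2.2.2, g1, g2]

theorem dsc_cast (c : Cu F) (v : LT F) :
    (dsc (bZ c) (L1 F) (L2 F) v : ℂ) = 2 * Complex.normSq v.1.1 - 3 * mk v.1 v.1 := by
  rw [pq_normSq (pq_bZ c v), ← bZ_cast c, dsc]
  push_cast
  rfl

theorem mk_self (c : Cu F) (a : ℂ) (x : H (XF F)) :
    2 * Complex.normSq a - 3 * mk (F := F) (a, pr F x) (a, pr F x) =
      3 * JF F (x * x) - JF F (x * hyp F ^ 2) ^ 2 := by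
  rw [P287T.Top.mk, ← Complex.normSq_eq_conj_mul_self, Complex.ofReal_re, J_pr_pr c]
  ring

theorem gen_cls (h : Per.Sm F) {v : Cls F} (hv : v ∈ LT F) (hh : Hdg v)
    (g : ∀ w ∈ LT F, Hdg w → In1 v w) (hd : (d : ℂ) = 2 * Complex.normSq v.1 - 3 * mk v v) :
    Gen F d := by
  obtain ⟨x, hx, u, hu, rfl⟩ := hv
  lift x to Lk (XF F) 4 using hx
  obtain ⟨B, η, hB, hη, -, -, hs, -, -, h3, -⟩ := stForm h.cu
  have hJ : ∀ y : Lk (XF F) 4, JF F (y.1 * hyp F ^ 2) = B y η := fun y => by rw [hB y η, hη]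
  have hp : ∀ y : Lk (XF F) 4, pr F y.1 = y.1 - ((B y η : ℂ) / 3) • η.1 := fun y => by
    rw [pr, hJ, hη]
  have k : η.1 ∈ Per.TT F 2 2 := by
    rw [hη, sq]
    exact h.cubH.hg.mul 1 1 1 1 _ h.cubH.h11 _ h.cubH.h11
  have k' : ∀ y : Lk (XF F) 4, pr F y.1 ∈ Per.TT F 2 2 ↔ y.1 ∈ Per.TT F 2 2 := fun y => by
    rw [hp]
    exact Submodule.sub_mem_iff_left _ (Submodule.smul_mem _ _ k)
  rw [mk_self h.cu, hJ, ← hB] at hd
  refine ⟨B, η, x, hB, hs, hη, h3, k, (k' x).1 hh, by exact_mod_cast hd, fun y hy => ?_⟩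
  obtain ⟨r1, r2, j, e⟩ := g (eis ![B y η, 0, 0], pr F y.1)
    ⟨y.1, y.2, _, by simp [hJ], rfl⟩ ((k' y).2 hy)
  have e2 : pr F y.1 = j • pr F x.1 := by simpa [l1, l2] using congrArg Prod.snd e
  obtain ⟨m, e3⟩ := eis_sum (a := ![B y η, 0, 0])
    (b := r1 • ![1, -1, 0] + r2 • ![0, 1, -1] + j • u) (by
      have := congrArg Prod.fst e
      simp [l1, l2, eis] at this ⊢
      linear_combination this)
  rw [hJ, Int.cast_inj] at hu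
  have e4 : B y η = j * B x η + 3 * m := by
    simp at e3
    rw [← hu]
    linear_combination e3
  refine Submodule.mem_span_pair.2 ⟨m, j, Subtype.ext ?_⟩
  rw [hp, hp, e4] at e2
  simp only [← Int.cast_smul_eq_zsmul ℂ] at e2
  simp only [Submodule.coe_add, Submodule.coe_smul_of_tower, ← Int.cast_smul_eq_zsmul ℂ]
  push_cast at e2
  linear_combination (norm := module) -e2

theorem cls_lab (h : Per.Sm F) (hl : Lab F d) : ∃ o : LT F, Hdg o.1 ∧ SatA (L1 F) (L2 F) o ∧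
    dsc (bZ h.cu) (L1 F) (L2 F) o = d := by
  obtain ⟨B, η, v, hB, hs, hη, h3, k1, k2, hsat, rfl⟩ := hl
  have hJ : ∀ x : Lk (XF F) 4, JF F (x.1 * hyp F ^ 2) = B x η := fun x => by
    rw [hB x η, hη]
  have hp : ∀ x : Lk (XF F) 4, pr F x.1 = x.1 - ((B x η : ℂ) / 3) • η.1 := fun x => by
    rw [pr, hJ, hη]
  refine ⟨⟨(eis ![B v η, 0, 0], pr F v.1), v.1, v.2, _, by simp [hJ], rfl⟩, ?_, ?_, ?_⟩
  · change pr F v.1 ∈ Per.TT F 2 2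
    rw [hp]
    exact sub_mem (hd_tt.1 k2) (Submodule.smul_mem _ _ (hd_tt.1 k1))
  · rintro ⟨_, x, hx, t, ht, rfl⟩ k hk ⟨r1, r2, j, e⟩
    lift x to Lk (XF F) 4 using hx
    have e2 : k • pr F x.1 = j • pr F v.1 := by
      simpa [L1, L2, l1, l2] using congrArg (fun a : LT F => a.1.2) e
    have e3 : (3 * k) • x = (k * B x η - j * B v η) • η + (3 * j) • v := Subtype.ext (by
      rw [hp, hp] at e2
      simp only [← Int.cast_smul_eq_zsmul ℂ] at e2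
      simp only [Submodule.coe_add, Submodule.coe_smul_of_tower, ← Int.cast_smul_eq_zsmul ℂ]
      push_cast
      linear_combination (norm := module) (3 : ℂ) • e2)
    obtain ⟨m, n, e4⟩ := Submodule.mem_span_pair.1 (hsat (3 * k) x (by omega) (e3 ▸
      Submodule.mem_span_pair.2 ⟨_, _, rfl⟩))
    have e5 : B x η = 3 * m + n * B v η := by
      rw [← e4]
      simp only [map_add, map_smul, LinearMap.add_apply, LinearMap.smul_apply, smul_eq_mul, h3]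
      ring
    have e6 : t 0 + t 1 + t 2 = 3 * m + n * B v η := by
      rw [hJ] at ht
      rw [← e5]
      exact_mod_cast ht
    refine ⟨t 0 - n * B v η - m, t 0 + t 1 - n * B v η - 2 * m, n, Subtype.ext (Prod.ext ?_ ?_)⟩
    · have e7 := congrArg (fun r : ℤ => (r : ℂ)) e6
      simp [L1, L2, l1, l2, eis] at e7 ⊢
      linear_combination om ^ 2 * e7 + m * En.om_rel
    · simp only [L1, L2, l1, l2, AddSubgroup.coe_add, AddSubgroup.coe_zsmul, Prod.snd_add,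
        Prod.smul_snd, smul_zero, zero_add]
      rw [hp, hp, e5, ← e4]
      simp only [Submodule.coe_add, Submodule.coe_smul_of_tower, ← Int.cast_smul_eq_zsmul ℂ]
      push_cast
      module
  · refine Int.cast_injective (α := ℂ) ((dsc_cast _ _).trans ((mk_self h.cu _ _).trans ?_))
    rw [hJ, Int.cast_sub, Int.cast_mul, hB v v, Int.cast_pow]
    rfl

theorem transfer {h : Per.Sm F} {r : ℝ} {Φ : T3 → Per.V → Per.V} {σ : T3 → H (XF F)}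
    {η : T3 → T3 →ₗ[ℂ] H (XF F)} (k : Per.PM h p3 r Φ σ η) {t : T3} (ht : t ∈ ball 0 r) {v : LT F}
    (a : Hd (bR h.cu) (xv h.cu (-1) (σ t)) (xv h.cu Complex.I (σ t)) (io h.cu v))
    (g : ∀ w, Hd (bR h.cu) (xv h.cu (-1) (σ t)) (xv h.cu Complex.I (σ t)) (io h.cu w) →
      InA (L1 F) (L2 F) v w) : Gen (F + p3 t) (dsc (bZ h.cu) (L1 F) (L2 F) v) := by
  obtain ⟨b1, b2, b3, -⟩ := stTr h.cu (k.sm t ht).cu (k.tr t ht)
  obtain ⟨u, e⟩ := b1.2 v.1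
  have hu := (b2 u).1 (e ▸ v.2)
  refine gen_cls (k.sm t ht) hu ((pm_hdg k ht hu).1 (e ▸ (hd_io _ _ _).1 a)) (fun w hw c => ?_) ?_
  · obtain ⟨r1, r2, j, d⟩ := g ⟨_, (b2 w).2 hw⟩ ((hd_io _ _ _).2 ((pm_hdg k ht hw).2 c))
    refine (tr_In1 b1.1 u w).1 ⟨r1, r2, j, ?_⟩
    rw [e]
    exact congrArg Subtype.val d
  · rw [dsc_cast, ← b3, ← e]
    rfl

theorem near (h : Per.Sm F) (hO : O ∈ 𝓝 0) : ∃ N : ℤ, ∀ d, N < d → d % 6 = 0 ∨ d % 6 = 2 →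
    ∃ t ∈ O, Per.Sm (F + p3 t) ∧ Gen (F + p3 t) d := by
  obtain ⟨r, Φ, σ, η, k⟩ := Per.stPer_of Per.stHes T3 h p3 p3_hom
  obtain ⟨D, h1, -, h3, h4⟩ := pm_geo k
  haveI : Countable (LT F) := (bs h.cu).equivFun.injective.countable
  obtain ⟨e1, f1, e2, f2, g, hU, a1, a2, a3, a4, a5⟩ := planes h
  obtain ⟨N, hN⟩ := eventually_atTop.1 ((big (lat h.cu) (emb h.cu) h4 h3 hO hU a1 a2 (g := 0)
    ⟨by simp, by simp, by simp, by simp⟩).and (big (lat h.cu) (emb h.cu) h4 h3 hO hU a1 a2 a3))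
  refine ⟨6 * N, fun d hd e => ?_⟩
  obtain ⟨c1, c2⟩ := hN (d / 6) (by omega)
  rcases e with e | e
  · obtain ⟨t, ht, v, v1, v2, v3, v4, v5⟩ := c1
    refine ⟨t, ht.2, k.sm t (h1 ht.1), ?_⟩
    have := transfer k (h1 ht.1) v4 v5
    rwa [show dsc (bZ h.cu) (L1 F) (L2 F) v = d by
      rw [dsc, v1, v2, v3, map_zero, map_zero]; omega] at this
  · obtain ⟨t, ht, v, v1, v2, v3, v4, v5⟩ := c2
    refine ⟨t, ht.2, k.sm t (h1 ht.1), ?_⟩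
    have := transfer k (h1 ht.1) v4 v5
    rwa [show dsc (bZ h.cu) (L1 F) (L2 F) v = d by rw [dsc, v1, v2, v3, a4, a5]; omega] at this

theorem iso_of (h : Iso F G) : ∃ φ : XF F ≃ₜ XF G,
    Hb.HolM (P287Q.Pub.cone F) (Quo.mk _) (P287Q.Pub.cone G) (Quo.mk _) φ :=
  have k : ∀ (r r' : P287Q.Stm.cone F → P287Q.Stm.cone F → Prop)
      (s s' : P287Q.Stm.cone G → P287Q.Stm.cone G → Prop), r = r' → s = s' →
      (∃ φ : Quot r' ≃ₜ Quot s', Hb.HolM _ (Quot.mk r') _ (Quot.mk s') φ) →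
      ∃ φ : Quot r ≃ₜ Quot s, Hb.HolM _ (Quot.mk r) _ (Quot.mk s) φ :=
    fun _ _ _ _ e e' => e ▸ e' ▸ id
  k _ _ _ _ (Ey.rel_eq F) (Ey.rel_eq G) h

theorem cnt (hF : Per.Sm F) (hG : Per.Sm G) : ∃ s ∈ Per.TT G 3 1, s ≠ 0 ∧
    ∃ S : Set (H (XF F)), S.Countable ∧ ∀ ψ : H (XF G) →ₗ[ℂ] H (XF F),
      (∀ x ∈ Lk (XF G) 4, ψ x ∈ Lk (XF F) 4) → ψ s ∈ S := by
  obtain ⟨s, hs, h0⟩ := Submodule.exists_mem_ne_zero_of_ne_bot (p := Per.TT G 3 1) fun e => by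
    have := hG.cubH.h31
    rw [e, finrank_bot] at this
    exact zero_ne_one this
  have h1 : s ∈ Submodule.span ℂ (Lk (XF G) 4 : Set (H (XF G))) := by
    rw [show Submodule.span ℂ (Lk (XF G) 4 : Set (H (XF G))) = _ from (hG.cubH.pz.lat 4).span]
    exact hG.cubH.hg.deg 3 1 s hs
  obtain ⟨n, f, g, rfl⟩ := Submodule.mem_span_set'.1 h1
  haveI : Module.Free ℤ (Lk (XF F) 4) := (hF.cubH.pz.lat 4).free
  haveI : Module.Finite ℤ (Lk (XF F) 4) := (hF.cubH.pz.lat 4).fin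
  haveI : Countable (Lk (XF F) 4) := (Module.finBasis ℤ _).equivFun.injective.countable
  refine ⟨_, hs, h0, _, countable_range fun a : Fin n → Lk (XF F) 4 => ∑ i, f i • (a i).1,
    fun ψ hψ => ⟨fun i => ⟨_, hψ _ (g i).2⟩, ?_⟩⟩
  simp only [map_sum, map_smul]

theorem iso_map (h : Per.Sm F) (i : Iso F G) : ∃ φ : C(XF F, XF G),
    Function.Injective (H.map φ) ∧ ∀ s ∈ Per.TT G 3 1, H.map φ s ∈ Per.TT F 3 1 := by
  obtain ⟨φ, hφ⟩ := iso_of i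
  haveI := N0_isAct (π₀ (Fin 6))
  refine ⟨φ, (H.map_bijective_of_homeomorph φ).1, fun s hs => ?_⟩
  have a : Cub.Hd G 3 1 s := Cub.hd_iff.2 hs
  have b : Cub.Hd F 3 1 (H.map (φ : C(XF F, XF G)) s) :=
    Mf.IsHd.pull_lift' (fun x hx => let ⟨m, _, a⟩ := h.qm.mfd hx; ⟨m, a⟩) _ hφ a
  exact Cub.hd_iff.1 b

theorem avoid {h : Per.Sm F} {r : ℝ} {Φ : T3 → Per.V → Per.V} {σ : T3 → H (XF F)}
    {η : T3 → T3 →ₗ[ℂ] H (XF F)} (k : Per.PM h p3 r Φ σ η) {t : T3} (ht : t ∈ ball 0 r)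
    {s : H (XF G)} (hs : s ∈ Per.TT G 3 1) (h0 : s ≠ 0) (i : Iso (F + p3 t) G) :
    ∃ ψ : H (XF G) →ₗ[ℂ] H (XF F), (∀ x ∈ Lk (XF G) 4, ψ x ∈ Lk (XF F) 4) ∧
      ∀ z, Hd (bR h.cu) (xv h.cu (-1) (ψ s)) (xv h.cu Complex.I (ψ s)) z →
        Hd (bR h.cu) (xv h.cu (-1) (σ t)) (xv h.cu Complex.I (σ t)) z := by
  have h' := k.sm t ht
  obtain ⟨φ, a0, a1⟩ := iso_map h' i
  have a2 : H.map φ s ≠ 0 := fun e => h0 (a0 (e.trans (map_zero _).symm))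
  obtain ⟨-, h2, h3, h4, -⟩ := Per.stTop h h' (k.tr t ht)
  have h2 : ∀ y, JF F (H.map (k.tr t ht).φ y) = JF (F + p3 t) y := h2
  obtain ⟨s', b1, b2, e⟩ := k.om t ht
  refine ⟨(H.mapA (k.tr t ht).φ).toLinearMap ∘ₗ (H.mapA φ).toLinearMap,
    fun x hx => ⟨Lam.map _ (Lam.map _ hx.1), (H.IsDeg.map hx.2 _).map _⟩, fun z a => ?_⟩
  rw [Ch.hd_iff] at a ⊢
  obtain ⟨n, hn⟩ := h3.2 (nR h.cu z)
  have n1 : H.IsDeg 4 n := (h4 4 n).1 (hn ▸ nR_deg h.cu z)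
  have n2 : Mono.cj n = n := h3.1 (by rw [← Mono.cj_map, hn, nR_cj])
  change JF F (nR h.cu z * H.map (k.tr t ht).φ (H.map φ s)) = 0 at a
  rw [← hn, ← map_mul, h2] at a
  rw [e, ← hn, ← map_mul, h2]
  exact (t22_real h'.cu b1 b2 n1 n2).1 ((t22_real h'.cu (a1 s hs) a2 n1 n2).2 a)

theorem dens (h : Per.Sm F) (hl : Lab F d) (pos : d ≠ 0) (hO : O ∈ 𝓝 0) {G : ℕ → S6}
    (hG : ∀ n, Per.Sm (G n)) :
    ∃ t ∈ O, Per.Sm (F + p3 t) ∧ Gen (F + p3 t) d ∧ ∀ n, ¬ Iso (F + p3 t) (G n) := by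
  obtain ⟨r, Φ, σ, η, k⟩ := Per.stPer_of Per.stHes T3 h p3 p3_hom
  obtain ⟨D, h1, -, h3, h4⟩ := pm_geo k
  haveI : Countable (LT F) := (bs h.cu).equivFun.injective.countable
  obtain ⟨⟨o, ho⟩, o1, o2, rfl⟩ := cls_lab h hl
  obtain ⟨b1, b2, -, -⟩ := stTr h.cu (k.sm 0 (h1 h3)).cu (k.tr 0 (h1 h3))
  obtain ⟨u, rfl⟩ := b1.2 o
  choose s s1 s2 S s3 s4 using fun n => cnt h (hG n)
  obtain ⟨t, ht, a, g, c⟩ := vg (lat h.cu) (emb h.cu) h4 pos o2 h3 hO ((hd_io _ _ _).2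
    ((pm_hdg k (h1 h3) ((b2 u).1 ho)).2
      ((tr_self (fun _ => Hdg) (by rw [map_zero, add_zero]) _ k.zero u).1 o1)))
    ((countable_iUnion s3).image fun y => (xv h.cu (-1) y, xv h.cu Complex.I y))
  refine ⟨t, ht.2, k.sm t (h1 ht.1), transfer k (h1 ht.1) a g, fun n i => ?_⟩
  obtain ⟨ψ, p1, p2⟩ := avoid k (h1 ht.1) (s1 n) (s2 n) i
  obtain ⟨z, z1, z2⟩ := c _ ⟨ψ (s n), mem_iUnion.2 ⟨n, s4 n ψ p1⟩, rfl⟩
  exact z2 (p2 z z1)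

end Vale.Agent.N287
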