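import Vale.Agent.P287T.Ch.Chain
import Vale.Agent.P287T.Cl.Lat3

/-!
# Lattice vectors of every large square near a given direction, and very general points
-/

namespace Vale.Agent.N287

open Set Filter Topology Module Metric P287T P287T.Ch

variable {Λ : Type} [AddCommGroup Λ] {B : Λ →+ Λ →+ ℤ} {V : Type} [NormedAddCommGroup V]
  [NormedSpace ℝ V] {b : V →ₗ[ℝ] V →ₗ[ℝ] ℝ} {ι : Λ →+ V} {l1 l2 : Λ}
  {T : Type} [TopologicalSpace T] {D O : Set T} {x y : T → V} {t : T}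

/-- The discriminant of `A2 + ℤ v`, up to sign. -/
def dsc (B : Λ →+ Λ →+ ℤ) (l1 l2 v : Λ) : ℤ :=
  2 * (B l1 v ^ 2 + B l1 v * B l2 v + B l2 v ^ 2) - 3 * B v v

/-- `w` lies in `A2 + ℤ v`. -/
def InA (l1 l2 v w : Λ) : Prop := ∃ r1 r2 j : ℤ, w = r1 • l1 + r2 • l2 + j • v

/-- `A2 + ℤ v` is saturated. -/
def SatA (l1 l2 v : Λ) : Prop := ∀ w (k : ℤ), k ≠ 0 → InA l1 l2 v (k • w) → InA l1 l2 v w

/-- Three times the projection to the orthogonal complement of `A2`. -/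
def pj (B : Λ →+ Λ →+ ℤ) (l1 l2 w : Λ) : Λ :=
  (3 : ℤ) • w - (2 * B l1 w + B l2 w) • l1 - (B l1 w + 2 * B l2 w) • l2

theorem pj_l1 (L : Lat B l1 l2) (w : Λ) : B l1 (pj B l1 l2 w) = 0 := by
  simp [pj, L.h11, L.h12]; ring

theorem pj_l2 (L : Lat B l1 l2) (w : Λ) : B l2 (pj B l1 l2 w) = 0 := by
  simp [pj, L.h22, L.symm l2 l1, L.h12]; ring

theorem pj_symm (L : Lat B l1 l2) (a c : Λ) : B (pj B l1 l2 a) c = B a (pj B l1 l2 c) := by
  simp [pj, L.symm a l1, L.symm a l2]; ring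

theorem pj_self (L : Lat B l1 l2) (o : Λ) : B o (pj B l1 l2 o) = -dsc B l1 l2 o := by
  simp [pj, dsc, L.symm o l1, L.symm o l2]; ring

theorem sat_mem (L : Lat B l1 l2) (E : Emb B b ι) {o w : Λ} (hd : dsc B l1 l2 o ≠ 0)
    (hs : SatA l1 l2 o)
    (h : ∀ ξ, b (ι l1) ξ = 0 → b (ι l2) ξ = 0 → b (ι o) ξ = 0 → b (ι w) ξ = 0) :
    InA l1 l2 o w := by
  have z : dsc B l1 l2 o • pj B l1 l2 w + B w (pj B l1 l2 o) • pj B l1 l2 o = 0 :=
    L.nd _ fun v => by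
      have k := h (ι (dsc B l1 l2 o • pj B l1 l2 v + B o (pj B l1 l2 v) • pj B l1 l2 o))
        (by rw [E.cast]; simp [pj_l1 L]) (by rw [E.cast]; simp [pj_l2 L])
        (by rw [E.cast]; simp [pj_self L]; ring)
      rw [E.cast, Int.cast_eq_zero] at k
      simp only [map_add, map_zsmul, AddMonoidHom.add_apply, AddMonoidHom.smul_apply, smul_eq_mul,
        pj_symm L] at k ⊢
      linear_combination k
  refine hs w (3 * dsc B l1 l2 o) (mul_ne_zero three_ne_zero hd)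
    ⟨dsc B l1 l2 o * (2 * B l1 w + B l2 w) + B w (pj B l1 l2 o) * (2 * B l1 o + B l2 o),
      dsc B l1 l2 o * (B l1 w + 2 * B l2 w) + B w (pj B l1 l2 o) * (B l1 o + 2 * B l2 o),
      -3 * B w (pj B l1 l2 o), ?_⟩
  generalize B w (pj B l1 l2 o) = c at z ⊢
  generalize dsc B l1 l2 o = d at z ⊢
  simp only [pj] at z
  linear_combination (norm := module) z

theorem round (S : AddSubgroup Λ) {μ : V} (h : μ ∈ Submodule.span ℝ (ι '' S)) :
    ∃ C : ℝ, ∀ s : ℝ, ∃ m ∈ S, ‖ι m - s • μ‖ ≤ C := by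
  induction h using Submodule.span_induction with
  | mem w hw =>
    obtain ⟨u, hu, rfl⟩ := hw
    refine ⟨‖ι u‖, fun s => ⟨⌊s⌋ • u, S.zsmul_mem hu _, ?_⟩⟩
    rw [iota_zsmul, ← sub_smul, norm_smul, Real.norm_eq_abs]
    exact mul_le_of_le_one_left (norm_nonneg _)
      (abs_le.2 ⟨by linarith [Int.lt_floor_add_one s], by linarith [Int.floor_le s]⟩)
  | zero => exact ⟨0, fun s => ⟨0, zero_mem _, by simp⟩⟩
  | add w w' _ _ a a' =>
    obtain ⟨C, a⟩ := a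
    obtain ⟨C', a'⟩ := a'
    refine ⟨C + C', fun s => ?_⟩
    obtain ⟨m, h1, h2⟩ := a s
    obtain ⟨m', h3, h4⟩ := a' s
    refine ⟨m + m', add_mem h1 h3, ?_⟩
    rw [map_add, smul_add, add_sub_add_comm]
    exact (norm_add_le _ _).trans (add_le_add h2 h4)
  | smul c w _ a =>
    obtain ⟨C, a⟩ := a
    exact ⟨C, fun s => by simpa only [smul_smul] using a (s * c)⟩

variable [FiniteDimensional ℝ V]

theorem vg0 (G : Geo b (ι l1) (ι l2) D x y) {o : Λ} (ht : t ∈ D) (hO : O ∈ 𝓝 t)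
    (ho : Hd b (x t) (y t) (ι o)) {Z : Set V} (hZ : Z.Countable) :
    ∃ t' ∈ D ∩ O, Hd b (x t') (y t') (ι o) ∧ ∀ z ∈ Z, Hd b (x t') (y t') z →
      ∀ η, b (ι l1) η = 0 → b (ι l2) η = 0 → b (ι o) η = 0 → b z η = 0 := by
  let W : Submodule ℝ V := (b (ι l1)).ker ⊓ (b (ι l2)).ker ⊓ (b (ι o)).ker
  have : CompleteSpace W := FiniteDimensional.complete ℝ W
  let S : V → Set W := fun w => {ξ | (∃ η : W, b w η ≠ 0) → b w (x t + ξ) ≠ 0}
  have c : ∀ w, Continuous fun ξ : W => b w (x t + ξ) := fun w =>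
    cont_b₂ b continuous_const (continuous_const.add continuous_subtype_val)
  have d : Dense (⋂ w ∈ Z, S w) := dense_biInter_of_isOpen (fun w _ => by
    by_cases h : ∃ η : W, b w η ≠ 0
    · simp only [S, h, true_imp_iff]
      exact isOpen_ne_fun (c w) continuous_const
    · simp only [S, h, false_imp_iff]
      exact isOpen_univ) hZ fun w _ ξ => by
    by_cases h : ξ ∈ S w
    · exact subset_closure h
    obtain ⟨⟨η, hη⟩, h0⟩ := Classical.not_imp.1 h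
    have k : Tendsto (fun s : ℝ => ξ + s • η) (𝓝[≠] 0) (𝓝 ξ) := by
      have : Continuous fun s : ℝ => ξ + s • η := by fun_prop
      simpa using (this.tendsto 0).mono_left nhdsWithin_le_nhds
    refine mem_closure_of_tendsto k (eventually_nhdsWithin_of_forall fun s hs _ => ?_)
    rw [Submodule.coe_add, ← add_assoc, map_add, not_not.1 h0, zero_add, Submodule.coe_smul,
      map_smul]
    exact smul_ne_zero hs hη
  have k : Tendsto (fun ξ : W => (x t + ξ, y t)) (𝓝 0) (𝓝 (x t, y t)) := by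
    have : Continuous fun ξ : W => (x t + ξ, y t) := by fun_prop
    simpa using this.tendsto 0
  obtain ⟨ξ, h1, h2⟩ := d.inter_nhds_nonempty (k.eventually (G.mov t ht O hO))
  obtain ⟨⟨w1, w2⟩, w3⟩ := ξ.2
  have p : ∀ g, b g ξ = 0 → Hd b (x t) (y t) g → Hd b (x t + ξ) (y t) g :=
    fun g a a' => ⟨by rw [map_add, a, a'.1, add_zero], a'.2⟩
  obtain ⟨t', h, e⟩ := h2 (p _ w1 (G.h1 t ht)) (p _ w2 (G.h2 t ht))
  refine ⟨t', h, (e _).2 (p _ w3 ho), fun w hw a η b1 b2 b3 => ?_⟩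
  by_contra r
  exact mem_iInter₂.1 h1 w hw ⟨⟨η, ⟨b1, b2⟩, b3⟩, r⟩ ((e _).1 a).1

theorem vg [Countable Λ] (L : Lat B l1 l2) (E : Emb B b ι) (G : Geo b (ι l1) (ι l2) D x y)
    {o : Λ} (hd : dsc B l1 l2 o ≠ 0) (hs : SatA l1 l2 o) (ht : t ∈ D) (hO : O ∈ 𝓝 t)
    (ho : Hd b (x t) (y t) (ι o)) {P : Set (V × V)} (hP : P.Countable) :
    ∃ t' ∈ D ∩ O, Hd b (x t') (y t') (ι o) ∧ (∀ w, Hd b (x t') (y t') (ι w) → InA l1 l2 o w) ∧
      ∀ q ∈ P, ∃ z, Hd b q.1 q.2 z ∧ ¬ Hd b (x t') (y t') z := by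
  choose z z0 hz using fun q : V × V => exists_perp b [ι l1, ι l2, ι o, x t, y t, q.1, q.2]
    (lt_of_lt_of_le (by simp) E.dim)
  obtain ⟨t', h1, h2, h3⟩ := vg0 G ht hO ho ((countable_range ι).union (hP.image z))
  refine ⟨t', h1, h2, fun w a => sat_mem L E hd hs (h3 _ (.inl ⟨w, rfl⟩) a), fun q hq =>
    ⟨z q, ⟨(E.symm _ _).trans (hz q _ (by simp)), (E.symm _ _).trans (hz q _ (by simp))⟩,
      fun a => (G.neg t ht (z q) (hz q _ (by simp)) (hz q _ (by simp))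
        ⟨(E.symm _ _).trans (hz q _ (by simp)), (E.symm _ _).trans (hz q _ (by simp))⟩ (z0 q)).ne
        (h3 _ (.inr ⟨q, hq, rfl⟩) a _ (hz q _ (by simp)) (hz q _ (by simp)) (hz q _ (by simp)))⟩⟩

theorem bdd (b : V →ₗ[ℝ] V →ₗ[ℝ] ℝ) (μ : V) (C : ℝ) :
    ∃ K : ℝ, 0 ≤ K ∧ ∀ δ : V, ‖δ‖ ≤ C → |b μ δ| ≤ K ∧ |b δ δ| ≤ K := by
  have c : Continuous fun δ : V => |b μ δ| + |b δ δ| :=
    (cont_b₂ b continuous_const continuous_id).abs.add (cont_b₂ b continuous_id continuous_id).abs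
  obtain ⟨K, hK⟩ := (isCompact_closedBall (0 : V) C).exists_bound_of_continuousOn c.continuousOn
  refine ⟨|K|, abs_nonneg _, fun δ h => ?_⟩
  have := (le_abs_self _).trans ((hK δ (mem_closedBall_zero_iff.2 h)).trans (le_abs_self K))
  exact ⟨by linarith [abs_nonneg (b δ δ)], by linarith [abs_nonneg (b μ δ)]⟩

theorem appr (L : Lat B l1 l2) (E : Emb B b ι) {e1 f1 e2 f2 g : Λ} (hU : UU B e1 f1 e2 f2)
    (h1 : O4 B e1 f1 e2 f2 l1) (h2 : O4 B e1 f1 e2 f2 l2) (hg : O4 B e1 f1 e2 f2 g) {μ : V}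
    (hμ : ∀ a ∈ ({l1, l2, e1, f1, e2, f2} : Set Λ), b (ι a) μ = 0) (hn : b μ μ = -1) {W : Set V}
    (hW : W ∈ 𝓝 μ) : ∀ᶠ n : ℤ in atTop, ∃ v, B v v = -2 * n ∧ B f2 v = 1 ∧ B l1 v = B l1 g ∧
      B l2 v = B l2 g ∧ ∃ ε : ℝ, 0 < ε ∧ ε • ι v ∈ W := by
  let S : AddSubgroup Λ :=
    { carrier := {u | ∀ a ∈ ({l1, l2, e1, f1, e2, f2} : Set Λ), B a u = 0}
      zero_mem' := fun g _ => map_zero _
      add_mem' := fun ha hb g hg => by rw [map_add, ha g hg, hb g hg, add_zero]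
      neg_mem' := fun ha g hg => by rw [map_neg, ha g hg, neg_zero] }
  obtain ⟨C, hC⟩ := round S (E.span_perp (toFinite _) μ hμ)
  obtain ⟨K, K0, hK⟩ := bdd b μ (‖ι g‖ + C)
  obtain ⟨ρ, ρ0, hρ⟩ := Metric.mem_nhds_iff.1 hW
  obtain ⟨k, hk⟩ := exists_nat_gt (4 * K * ‖ι e1‖ / ρ)
  have k0 : (0 : ℝ) < k := lt_of_le_of_lt (by positivity) hk
  have k1 : (0 : ℤ) < k := by exact_mod_cast k0
  rw [div_lt_iff₀ ρ0] at hk
  have ts : Tendsto (fun n : ℤ => √(2 * n : ℝ)) atTop atTop :=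
    Real.tendsto_sqrt_atTop.comp (tendsto_intCast_atTop_atTop.const_mul_atTop two_pos)
  filter_upwards [ts.eventually_ge_atTop 1, eventually_ge_atTop 0, ts.eventually_gt_atTop
    (2 * (‖ι g‖ + C + ‖ι e1‖ + k * ‖ι f1‖ + ‖ι e2‖ + k * ‖ι f2‖) / ρ)] with n s1 n0 s2
  have ss : √(2 * n : ℝ) * √(2 * n : ℝ) = 2 * n := Real.mul_self_sqrt (by positivity)
  generalize √(2 * n : ℝ) = s at s1 s2 ss
  have s0 : 0 < s := by linarith
  rw [div_lt_iff₀ ρ0] at s2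
  obtain ⟨m, m1, m2⟩ := hC s
  have q1 := m1 l1 (by simp)
  have q2 := m1 l2 (by simp)
  obtain ⟨u, hu⟩ : ∃ u, u = g + m := ⟨_, rfl⟩
  have a1 : B e1 u = 0 := by rw [hu, map_add, L.symm, hg.1, m1 e1 (by simp), add_zero]
  have a2 : B f1 u = 0 := by rw [hu, map_add, L.symm, hg.2.1, m1 f1 (by simp), add_zero]
  have a3 : B e2 u = 0 := by rw [hu, map_add, L.symm, hg.2.2.1, m1 e2 (by simp), add_zero]
  have a4 : B f2 u = 0 := by rw [hu, map_add, L.symm, hg.2.2.2, m1 f2 (by simp), add_zero]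
  obtain ⟨δ, hδ⟩ : ∃ δ, δ = ι u - s • μ := ⟨_, rfl⟩
  have d1 : ‖δ‖ ≤ ‖ι g‖ + C := by
    rw [hδ, hu, map_add, add_sub_assoc]
    exact (norm_add_le _ _).trans (add_le_add le_rfl m2)
  obtain ⟨d2, d3⟩ := hK δ d1
  obtain ⟨q, hq⟩ := L.even u
  have d4 : (2 * q : ℝ) = -(2 * n) + 2 * s * b μ δ + b δ δ := by
    have := E.cast u u
    rw [hq, show ι u = s • μ + δ by rw [hδ, add_sub_cancel]] at this
    simp only [map_add, map_smul, LinearMap.add_apply, LinearMap.smul_apply, smul_eq_mul, hn,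
      E.symm δ μ] at this
    push_cast at this
    linear_combination -this - ss
  obtain ⟨N, hN⟩ : ∃ N, N = -n - q := ⟨_, rfl⟩
  have N1 : |(N : ℝ)| ≤ 2 * K * s := by
    have e : (N : ℝ) = -(s * b μ δ) - b δ δ / 2 := by rw [hN]; push_cast; linarith
    have := abs_le.1 d2
    have := abs_le.1 d3
    rw [e, abs_le]
    constructor <;> nlinarith
  have r1 := Int.emod_nonneg N k1.ne'
  have r2 := Int.emod_lt_of_pos N k1
  have r3 := Int.mul_ediv_add_emod N k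
  generalize N / k = a at r3
  generalize N % k = c at r1 r2 r3
  have c1 : |(c : ℝ)| ≤ k := by exact_mod_cast abs_le.2 ⟨by omega, r2.le⟩
  have c2 : k * |(a : ℝ)| ≤ 2 * K * s + k := by
    have e : (k * a : ℝ) = N - c := by rw [← r3]; push_cast; ring
    rw [← abs_of_pos k0, ← abs_mul, e, abs_of_pos k0]
    exact (abs_sub _ _).trans (add_le_add N1 c1)
  have u1 := hU.u1
  have u2 := hU.u2
  refine ⟨u + a • e1 + (k : ℤ) • f1 + e2 + c • f2, ?_, ?_, ?_, ?_, s⁻¹, inv_pos.2 s0, hρ ?_⟩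
  · simp only [map_add, map_zsmul, AddMonoidHom.add_apply, AddMonoidHom.smul_apply, smul_eq_mul,
      L.symm u e1, L.symm u f1, L.symm u e2, L.symm u f2, a1, a2, a3, a4, hq, u1.ee, u1.ff, u1.ef,
      u2.ee, u2.ff, u2.ef, L.symm f1 e1, L.symm f2 e2, L.symm e2 e1, L.symm e2 f1, L.symm f2 e1,
      L.symm f2 f1, hU.ee, hU.ef, hU.fe, hU.ff]
    linarith
  · simp [a4, u2.ff, u2.ef, L.symm f2 e2, L.symm f2 e1, L.symm f2 f1, hU.ef, hU.ff]
  · simp [hu, q1, h1.1, h1.2.1, h1.2.2.1, h1.2.2.2]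
  · simp [hu, q2, h2.1, h2.2.1, h2.2.2.1, h2.2.2.2]
  · have e : s⁻¹ • ι (u + a • e1 + (k : ℤ) • f1 + e2 + c • f2) - μ =
        s⁻¹ • (δ + (a : ℝ) • ι e1 + (k : ℝ) • ι f1 + ι e2 + (c : ℝ) • ι f2) := by
      have : μ = s⁻¹ • s • μ := by rw [smul_smul, inv_mul_cancel₀ s0.ne', one_smul]
      simp only [map_add, iota_zsmul, hδ, Int.cast_natCast]
      linear_combination (norm := module) -this
    rw [mem_ball, dist_eq_norm, e, norm_smul, Real.norm_eq_abs, abs_of_pos (inv_pos.2 s0),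
      inv_mul_lt_iff₀ s0]
    have n1 : ‖δ + (a : ℝ) • ι e1 + (k : ℝ) • ι f1 + ι e2 + (c : ℝ) • ι f2‖ ≤
        ‖δ‖ + |(a : ℝ)| * ‖ι e1‖ + k * ‖ι f1‖ + ‖ι e2‖ + |(c : ℝ)| * ‖ι f2‖ := by
      refine (norm_add_le _ _).trans (add_le_add ((norm_add_le _ _).trans (add_le_add
        ((norm_add_le _ _).trans (add_le_add ((norm_add_le _ _).trans (add_le_add le_rfl ?_)) ?_))
        le_rfl)) ?_)
      · rw [norm_smul, Real.norm_eq_abs]
      · rw [norm_smul, Real.norm_eq_abs, abs_of_pos k0]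
      · rw [norm_smul, Real.norm_eq_abs]
    have n2 : |(c : ℝ)| * ‖ι f2‖ ≤ k * ‖ι f2‖ := mul_le_mul_of_nonneg_right c1 (norm_nonneg _)
    have n3 : |(a : ℝ)| * ‖ι e1‖ ≤ s * ρ / 2 + ‖ι e1‖ := le_of_mul_le_mul_left (by
      have := mul_le_mul_of_nonneg_right c2 (norm_nonneg (ι e1))
      nlinarith [mul_le_mul_of_nonneg_right hk.le s0.le]) k0
    linarith

theorem big [Countable Λ] (L : Lat B l1 l2) (E : Emb B b ι) (G : Geo b (ι l1) (ι l2) D x y)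
    (ht : t ∈ D) (hO : O ∈ 𝓝 t) {e1 f1 e2 f2 g : Λ} (hU : UU B e1 f1 e2 f2)
    (h1 : O4 B e1 f1 e2 f2 l1) (h2 : O4 B e1 f1 e2 f2 l2) (hg : O4 B e1 f1 e2 f2 g) :
    ∀ᶠ n : ℤ in atTop, ∃ t' ∈ D ∩ O, ∃ v, B v v = -2 * n ∧ B l1 v = B l1 g ∧ B l2 v = B l2 g ∧
      Hd b (x t') (y t') (ι v) ∧ ∀ w, Hd b (x t') (y t') (ι w) → InA l1 l2 v w := by
  obtain ⟨z, z0, hz⟩ := exists_perp b [ι l1, ι l2, ι e1, ι f1, ι e2, ι f2, x t, y t]
    (lt_of_lt_of_le (by simp) E.dim)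
  have z2 : Hd b (x t) (y t) z :=
    ⟨by rw [E.symm]; exact hz _ (by simp), by rw [E.symm]; exact hz _ (by simp)⟩
  have z1 := neg_pos.2 (G.neg t ht z (hz _ (by simp)) (hz _ (by simp)) z2 z0)
  have hn : b ((√(-b z z))⁻¹ • z) ((√(-b z z))⁻¹ • z) = -1 := by
    have := Real.mul_self_sqrt z1.le
    have k := (Real.sqrt_pos.2 z1).ne'
    simp only [map_smul, LinearMap.smul_apply, smul_eq_mul]
    field_simp
    linarith
  have hμ : ∀ a ∈ ({l1, l2, e1, f1, e2, f2} : Set Λ), b (ι a) ((√(-b z z))⁻¹ • z) = 0 := by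
    rintro a (rfl | rfl | rfl | rfl | rfl | rfl) <;>
      rw [map_smul, hz (ι a) (by simp), smul_zero]
  have st := G.stab E.symm ht (interior_mem_nhds.2 hO) (hμ l1 (by simp)) (hμ l2 (by simp))
    (l := (√(-b z z))⁻¹ • z) ⟨by simp [z2.1], by simp [z2.2]⟩ (by rw [hn]; norm_num)
  filter_upwards [appr L E hU h1 h2 hg hμ hn st, eventually_gt_atTop 0]
  rintro n ⟨v, v1, v2, v3, v4, ε, ε0, t1, ht1, a, -⟩ n0
  obtain ⟨t', b1, b2, b3, -⟩ := vg L E G (o := v) (by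
      have : 0 < dsc B l1 l2 v := by
        rw [dsc, v1]
        nlinarith [sq_nonneg (B l1 v + B l2 v), sq_nonneg (B l1 v), sq_nonneg (B l2 v)]
      exact this.ne')
    (fun w k hk ⟨_, _, _, e⟩ => Cl.lat_sat_of_dual L ⟨h1.2.2.2, h2.2.2.2⟩ v2 hk e) ht1.1
    (mem_interior_iff_mem_nhds.1 ht1.2) (hd_smul ε0 a) countable_empty
  exact ⟨t', b1, v, v1, v3, v4, b2, b3⟩

end Vale.Agent.N287
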