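import Vale.Agent.N287.Ex
import Vale.Agent.P287D.Top.All

/-!
# Irrational cubic fourfolds in the divisors `C_d`
-/

set_option linter.style.haveILetI false

namespace Vale.Agent.N287

open Set Filter Topology Metric MvPolynomial P287Q.Cub P287T P287T.Ch P287T.Cy P287T.Au P287T.Rr
  P287T.Top P287T.Cl P287D.Ex P287T.Stm

variable {F F₀ : S6} {d R : ℤ} {ε δ : ℝ}

theorem coeff_p3 (t : T3) (m : Fin 6 →₀ ℕ) : ‖coeff m (p3 t)‖ ≤ ‖t‖ := by
  change ‖coeff m (∑ a, monomial a.1 (t a))‖ ≤ _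
  simp only [coeff_sum, coeff_monomial]
  by_cases h : m ∈ (Finset.univ : Finset (Fin 6)).finsuppAntidiag 3
  · rw [Finset.sum_eq_single ⟨m, h⟩ (fun b _ hb => if_neg fun e => hb (Subtype.ext e)) (by simp),
      if_pos rfl]
    exact PiLp.norm_apply_le t _
  · rw [Finset.sum_eq_zero fun b _ => if_neg fun e : b.1 = m => h (e ▸ b.2), norm_zero]
    exact norm_nonneg _

theorem coeff_add_p3 (t : T3) (m : Fin 6 →₀ ℕ) :
    ‖coeff m (F + p3 t) - coeff m F₀‖ ≤ ‖coeff m F - coeff m F₀‖ + ‖t‖ := by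
  rw [coeff_add, add_sub_right_comm]
  exact (norm_add_le _ _).trans (add_le_add le_rfl (coeff_p3 t m))

theorem adm_of {d : ℤ} (h : P287Q.Stm.Admissible d) : P287Q.Lat.Adm d :=
  ⟨by have := h.1; omega, h.2.1, h.2.2.1, h.2.2.2.1, fun p hp h2 =>
    h.2.2.2.2 p hp (hp.odd_of_ne_two h2)⟩

theorem k3_of [Fact (F.IsHomogeneous 3)] (h : KuK3.{1, 1} F) : K3Cat F :=
  let ⟨ν, I, i, a, ⟨L, b⟩, c⟩ := h
  ⟨ν, I, i, L, a, b, @c L b (HasDerivedCategory.standard _) (HasDerivedCategory.standard _)⟩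

theorem many_of (hR : ∀ F d, Per.Sm F → Gen F d → R < d → ¬ IsRationalForm F) (h : Per.Sm F)
    (hl : Lab F d) (h1 : R < d) (h2 : 0 < d) (hδ : 0 < δ)
    (c : ∀ m, ‖coeff m F - coeff m F₀‖ + δ ≤ ε) : Many F₀ ε d := fun G hG => by
  obtain ⟨t, ht, a, g, i⟩ := dens h hl h2.ne' (ball_mem_nhds 0 hδ) fun n => ⟨(hG n).1, (hG n).2⟩
  haveI := Fact.mk a.hom
  obtain ⟨b1, b2⟩ := (gen_iff a h2).1 g
  refine ⟨_, inferInstance, a.sm, fun m => ?_, i, b1, b2, hR _ _ a g h1,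
    fun e => k3_of (ku_lab _ a (Gen.lab g).1 (adm_of e) e.1)⟩
  have := c m
  have := coeff_add_p3 (F := F) (F₀ := F₀) t m
  have := mem_ball_zero_iff.1 ht
  linarith

theorem smooth_near (h : F₀.IsHomogeneous 3) (hδ : 0 < δ) :
    ∃ t : T3, ‖t‖ < δ ∧ Per.Sm (F₀ + p3 t) := by
  obtain ⟨W, hW, -⟩ := Bs.stBase stLat stMem hrr
  obtain ⟨g, hg⟩ := p3_onto _ (h.sub hW.hom)
  have c : Continuous fun s : ℂ => ‖(s - 1) • g‖ := by fun_prop
  have k := (fin_sing hW.hom (p3_hom g) hW.sm).countable.dense_compl ℂ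
  obtain ⟨s, h1, h2⟩ := k.inter_nhds_nonempty
    (c.continuousAt.eventually_lt continuousAt_const (show ‖((1 : ℂ) - 1) • g‖ < δ by simpa))
  refine ⟨_, h2, h.add (p3_hom _), ?_⟩
  rw [show F₀ + p3 ((s - 1) • g) = W + s • p3 g by rw [map_smul, sub_smul, one_smul, hg]; abel]
  exact not_not.1 h1

/-- Rational cubic fourfolds with `A(X)` of rank two have admissible, bounded discriminant. -/
theorem bounded : ∃ R : ℤ, ∀ (F : MvPolynomial (Fin 6) ℂ) (d : ℤ), F.IsHomogeneous 3 →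
    IsSmoothForm F → P287Q.Stm.InC F d → P287Q.Stm.RankTwo F → IsRationalForm F →
      P287Q.Stm.Admissible d ∧ d ≤ R := by
  obtain ⟨R, hR⟩ := P287D.Top.noRat
  refine ⟨R, fun F d h1 h2 h3 h4 h5 => ?_⟩
  have h : Per.Sm F := ⟨h1, h2⟩
  obtain ⟨a, b⟩ := lab_of h h3
  have g := gen_of a (rk2_of h h4) b.ne'
  obtain ⟨d', c1, c2, c3⟩ := lab h1 h2 h5
  obtain rfl := gen_uniq g (gen_of c1 (rk2_of h h4) (by omega)) b.ne'
  exact ⟨P287Q.Cub.adm_of c2 c3, not_lt.1 fun e => hR F d h g e h5⟩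

/-- Every cubic form is approximated in all `C_d` with large `d`. -/
theorem everywhere (F₀ : MvPolynomial (Fin 6) ℂ) (h : F₀.IsHomogeneous 3) (ε : ℝ) (hε : 0 < ε) :
    ∃ N : ℤ, ∀ d, N < d → d % 6 = 0 ∨ d % 6 = 2 → Many F₀ ε d := by
  obtain ⟨R, hR⟩ := P287D.Top.noRat
  have e : 0 < ε / 3 := by linarith
  obtain ⟨t, h1, h2⟩ := smooth_near h e
  obtain ⟨N, hN⟩ := near h2 (ball_mem_nhds 0 e)
  refine ⟨max (max N R) 0, fun d a b => ?_⟩
  simp only [max_lt_iff] at a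
  obtain ⟨t', h3, h4, h5⟩ := hN d a.1.1 b
  refine many_of hR h4 (Gen.lab h5).1 a.1.2 a.2 e fun m => ?_
  have k1 := coeff_add_p3 (F := F₀ + p3 t) (F₀ := F₀) t' m
  have k2 := coeff_add_p3 (F := F₀) (F₀ := F₀) t m
  have := mem_ball_zero_iff.1 h3
  rw [sub_self, norm_zero] at k2
  linarith

/-- The irrational cubic fourfolds are dense in `C_d` for large `d`. -/
theorem dense : ∃ R : ℤ, ∀ (F₀ : MvPolynomial (Fin 6) ℂ) (d : ℤ), F₀.IsHomogeneous 3 →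
    IsSmoothForm F₀ → P287Q.Stm.InC F₀ d → R < d → ∀ ε : ℝ, 0 < ε → Many F₀ ε d := by
  obtain ⟨R, hR⟩ := P287D.Top.noRat
  refine ⟨R, fun F d h1 h2 h3 h4 ε hε => ?_⟩
  obtain ⟨a, b⟩ := lab_of ⟨h1, h2⟩ h3
  exact many_of hR ⟨h1, h2⟩ a h4 b hε fun m => by simp

theorem imp (F : MvPolynomial (Fin 6) ℂ) [Fact (F.IsHomogeneous 3)] (h : IsSmoothForm F)
    (r : IsRationalForm F) : K3Cat F := k3_of (main F h r)

theorem not_iff : ¬ ∀ (F : MvPolynomial (Fin 6) ℂ) [Fact (F.IsHomogeneous 3)], IsSmoothForm F →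
    (IsRationalForm F ↔ K3Cat F) := fun h =>
  let ⟨F, _, a, b, c⟩ := (P287D.Top.final.{1, 1} P287D.Top.noRat).2
  c ((h F a).2 (k3_of b))

end Vale.Agent.N287
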